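import Mathlib

/-!
Two small topological facts: limits of connected sets, and preimages under monotone maps.
-/

open Set Filter Topology

namespace Vale.Agent.P084.Gen

/-- A limit of connected sets joins the limit points inside any set holding all limits. -/
theorem mem_component_of_limit {M : Type*} [MetricSpace M] {Kb B : Set M} (hKb : IsCompact Kb)
    (hB : IsCompact B) {C : ℕ → Set M} (hC : ∀ n, IsPreconnected (C n)) (hCK : ∀ n, C n ⊆ Kb)
    (hacc : ∀ φ : ℕ → ℕ, StrictMono φ → ∀ y : ℕ → M, (∀ n, y n ∈ C (φ n)) →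
      ∀ z, Tendsto y atTop (𝓝 z) → z ∈ B)
    {p q : M} {p' q' : ℕ → M} (hp' : ∀ n, p' n ∈ C n) (hq' : ∀ n, q' n ∈ C n)
    (hp : Tendsto p' atTop (𝓝 p)) (hq : Tendsto q' atTop (𝓝 q)) :
    q ∈ connectedComponentIn B p := by
  have hpB : p ∈ B := hacc id strictMono_id p' hp' p hp
  have hqB : q ∈ B := hacc id strictMono_id q' hq' q hq
  by_contra hne
  have : CompactSpace B := isCompact_iff_compactSpace.1 hB
  have hne' : (⟨q, hqB⟩ : B) ∉ connectedComponent (⟨p, hpB⟩ : B) := fun h => hne (by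
    rw [connectedComponentIn_eq_image hpB]
    exact ⟨_, h, rfl⟩)
  rw [connectedComponent_eq_iInter_isClopen, mem_iInter, not_forall] at hne'
  obtain ⟨⟨Z, hZ, hpZ⟩, hqZ⟩ := hne'
  have hP : IsCompact (Subtype.val '' Z) :=
    (hZ.isClosed.isCompact).image continuous_subtype_val
  have hQ : IsCompact (Subtype.val '' Zᶜ) :=
    (hZ.compl.isClosed.isCompact).image continuous_subtype_val
  have hd : Disjoint (Subtype.val '' Z) (Subtype.val '' Zᶜ) :=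
    (disjoint_image_iff Subtype.val_injective).2 disjoint_compl_right
  obtain ⟨U, W, hU, hW, hPU, hQW, hUW⟩ := SeparatedNhds.of_isCompact_isCompact hP hQ hd
  have hev : ∀ᶠ n in atTop, C n ⊆ U ∪ W := by
    by_contra h
    obtain ⟨φ, hφ, hφ'⟩ := extraction_of_frequently_atTop (not_eventually.1 h)
    choose y hy hy' using fun n => not_subset.1 (hφ' n)
    obtain ⟨z, -, ψ, hψ, hz⟩ := hKb.tendsto_subseq (fun n => hCK _ (hy n))
    have hzB := hacc (φ ∘ ψ) (hφ.comp hψ) (y ∘ ψ) (fun n => hy (ψ n)) z hz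
    have hzUW : z ∈ U ∪ W := by
      by_cases hzZ : (⟨z, hzB⟩ : B) ∈ Z
      · exact Or.inl (hPU ⟨_, hzZ, rfl⟩)
      · exact Or.inr (hQW ⟨_, hzZ, rfl⟩)
    obtain ⟨n, hn⟩ := (hz.eventually ((hU.union hW).mem_nhds hzUW)).exists
    exact hy' (ψ n) hn
  have hpU : ∀ᶠ n in atTop, p' n ∈ U := hp.eventually (hU.mem_nhds (hPU ⟨_, hpZ, rfl⟩))
  have hqW : ∀ᶠ n in atTop, q' n ∈ W := hq.eventually (hW.mem_nhds (hQW ⟨_, hqZ, rfl⟩))
  obtain ⟨n, ⟨hn, h1⟩, h2⟩ := ((hev.and hpU).and hqW).exists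
  have := (hC n).subset_left_of_subset_union hU hW hUW hn ⟨_, hp' n, h1⟩ (hq' n)
  exact Set.disjoint_left.1 hUW this h2

/-- Preimages of closed connected sets under monotone maps of compact sets are connected. -/
theorem preimage_preconnected {M Z : Type*} [TopologicalSpace M] [T2Space M] [TopologicalSpace Z]
    [T2Space Z] {K : Set M} (hK : IsCompact K) {f : M → Z} (hf : ContinuousOn f K) {A : Set Z}
    (hA : IsClosed A) (hAc : IsPreconnected A) (hAf : A ⊆ f '' K)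
    (hfib : ∀ z ∈ A, IsPreconnected (K ∩ f ⁻¹' {z})) : IsPreconnected (K ∩ f ⁻¹' A) := by
  rw [isPreconnected_closed_iff]
  intro t t' ht ht' hsub hne hne'
  have hP : IsCompact (K ∩ f ⁻¹' A) :=
    hK.of_isClosed_subset (hf.preimage_isClosed_of_isClosed hK.isClosed hA) inter_subset_left
  have him : ∀ s : Set M, IsClosed s → IsClosed (f '' (K ∩ f ⁻¹' A ∩ s)) := fun s hs =>
    ((hP.inter_right hs).image_of_continuousOn (hf.mono fun x hx => hx.1.1)).isClosed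
  have hcov : A ⊆ f '' (K ∩ f ⁻¹' A ∩ t) ∪ f '' (K ∩ f ⁻¹' A ∩ t') := fun z hz => by
    obtain ⟨x, hx, rfl⟩ := hAf hz
    rcases hsub (show x ∈ K ∩ f ⁻¹' A from ⟨hx, hz⟩) with h | h
    · exact Or.inl ⟨x, ⟨⟨hx, hz⟩, h⟩, rfl⟩
    · exact Or.inr ⟨x, ⟨⟨hx, hz⟩, h⟩, rfl⟩
  obtain ⟨a, ha, hat⟩ := hne
  obtain ⟨b, hb, hbt⟩ := hne'
  obtain ⟨z, hzA, ⟨x, hx, hxz⟩, ⟨y, hy, hyz⟩⟩ := isPreconnected_closed_iff.1 hAc _ _
    (him t ht) (him t' ht') hcov ⟨f a, ha.2, a, ⟨ha, hat⟩, rfl⟩ ⟨f b, hb.2, b, ⟨hb, hbt⟩, rfl⟩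
  obtain ⟨w, hw, hwt⟩ := isPreconnected_closed_iff.1 (hfib z hzA) t t' ht ht'
    (fun u hu => hsub ⟨hu.1, show f u ∈ A by rw [show f u = z from hu.2]; exact hzA⟩)
    ⟨x, ⟨hx.1.1, hxz⟩, hx.2⟩ ⟨y, ⟨hy.1.1, hyz⟩, hy.2⟩
  exact ⟨w, ⟨hw.1, show f w ∈ A by rw [show f w = z from hw.2]; exact hzA⟩, hwt⟩

end Vale.Agent.P084.Gen
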