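import Vale.Agent.P084.Gen.Fibre
import Vale.Agent.P084.Gen.Topo
import Vale.Agent.P084.Strict.Band
import Vale.Agent.P084.Strict.Shift

/-!
Constancy of `G u + G (d - u)` on a lens, for an arbitrary norm.
-/

open Set Metric Filter Topology Module

namespace Vale.Agent.P084.Gen

open Vale.Agent.P084.Strict

variable {E : Type*} [NormedAddCommGroup E] [NormedSpace ℝ E]

/-- Removing the coordinate along `d`. -/
def flat (d : E) (g : E →L[ℝ] ℝ) (z : E) : E := z - g z • d

/-- The direction of a point of the lens, seen across `d`. -/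
noncomputable def dir (d : E) (g : E →L[ℝ] ℝ) (z : E) : E := ‖flat d g z‖⁻¹ • flat d g z

variable {d : E} {g : E →L[ℝ] ℝ}

theorem flat_ne (hd1 : ‖d‖ < 1) {z : E} (hz : z ∈ Lens d) : flat d g z ≠ 0 := fun h =>
  not_smul_of_lens hd1 hz (g z) (sub_eq_zero.1 h)

theorem decomp (z : E) : z = flat d g z + g z • d := (sub_add_cancel z (g z • d)).symm

theorem norm_dir (hd1 : ‖d‖ < 1) {z : E} (hz : z ∈ Lens d) : ‖dir d g z‖ = 1 := by
  rw [dir, norm_smul, norm_inv, norm_norm, inv_mul_cancel₀ (norm_ne_zero_iff.2 (flat_ne hd1 hz))]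

theorem decomp_dir (hd1 : ‖d‖ < 1) {z : E} (hz : z ∈ Lens d) :
    z = ‖flat d g z‖ • dir d g z + g z • d := by
  rw [dir, smul_smul, mul_inv_cancel₀ (norm_ne_zero_iff.2 (flat_ne hd1 hz)), one_smul]
  exact decomp z

theorem flat_eq_of_dir_eq (hd1 : ‖d‖ < 1) {z z' : E} (hz : z ∈ Lens d) (hz' : z' ∈ Lens d)
    (h : dir d g z = dir d g z') : flat d g z' = flat d g z := by
  have hn : ‖flat d g z‖ ≠ 0 := norm_ne_zero_iff.2 (flat_ne hd1 hz)
  have hn' : ‖flat d g z'‖ ≠ 0 := norm_ne_zero_iff.2 (flat_ne hd1 hz')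
  set s := ‖flat d g z'‖ / ‖flat d g z‖ with hs
  have hs0 : 0 < s := div_pos (norm_pos_iff.2 (flat_ne hd1 hz')) (norm_pos_iff.2 (flat_ne hd1 hz))
  have h2 : flat d g z' = s • flat d g z := by
    rw [hs, div_eq_mul_inv, mul_smul, show ‖flat d g z‖⁻¹ • flat d g z = dir d g z from rfl, h, dir,
      smul_smul, mul_inv_cancel₀ hn', one_smul]
  have e1 : flat d g z + g z • d ∈ Lens d := by rw [← decomp]; exact hz
  have e2 : s • flat d g z + g z' • d ∈ Lens d := by rw [← h2, ← decomp]; exact hz'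
  rw [h2, radius_unique hd1 hs0 e1 e2, one_smul]

theorem isPreconnected_fibre (hd1 : ‖d‖ < 1) (hg : g d = 1) (z₀ : E) :
    IsPreconnected (Lens d ∩ dir d g ⁻¹' {z₀}) := by
  by_cases hne : (Lens d ∩ dir d g ⁻¹' {z₀}).Nonempty
  swap
  · rw [not_nonempty_iff_eq_empty.1 hne]; exact isPreconnected_empty
  obtain ⟨p, hp, hpz⟩ := hne
  refine isPreconnected_of_forall p fun t ht => ?_
  have hflat := flat_eq_of_dir_eq hd1 hp ht.1 (hpz.trans ht.2.symm)
  refine ⟨(fun x : ℝ => flat d g p + x • d) '' uIcc (g p) (g t), ?_,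
    ⟨g p, left_mem_uIcc, (decomp p).symm⟩, ⟨g t, right_mem_uIcc, by rw [← hflat]; exact (decomp t).symm⟩,
    isPreconnected_uIcc.image _ (by fun_prop)⟩
  rintro _ ⟨x, hx, rfl⟩
  have e1 : flat d g p + g p • d ∈ Lens d := by rw [← decomp]; exact hp
  have e2 : flat d g p + g t • d ∈ Lens d := by rw [← hflat, ← decomp]; exact ht.1
  have hmem : flat d g p + x • d ∈ Lens d := by
    rcases mem_uIcc.1 hx with ⟨h1, h2⟩ | ⟨h1, h2⟩
    · exact fibre_convex h1 h2 e1 e2
    · exact fibre_convex h1 h2 e2 e1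
  refine ⟨hmem, ?_⟩
  have hf : flat d g (flat d g p + x • d) = flat d g p := by
    simp only [flat, map_add, map_sub, map_smul, hg, smul_eq_mul, mul_one, sub_self, zero_add]
    module
  show dir d g (flat d g p + x • d) = z₀
  rw [dir, hf]
  exact hpz

variable [FiniteDimensional ℝ E]

theorem isCompact_lens (d : E) : IsCompact (Lens d) := by
  refine (isCompact_sphere (0 : E) 1).of_isClosed_subset ?_ fun z hz => by simpa using hz.1
  exact (isClosed_eq continuous_norm continuous_const).inter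
    (isClosed_eq (continuous_const.sub continuous_id).norm continuous_const)

theorem continuousOn_dir (hd1 : ‖d‖ < 1) : ContinuousOn (dir d g) (Lens d) := by
  have h : Continuous (flat d g) := by unfold flat; fun_prop
  exact (h.norm.continuousOn.inv₀ fun z hz => norm_ne_zero_iff.2 (flat_ne hd1 hz)).smul
    h.continuousOn

theorem exists_over (hd : d ≠ 0) (hd1 : ‖d‖ < 1) (hg : g d = 1) {w : E} (hw : ‖w‖ = 1)
    (hgw : g w = 0) : ∃ z ∈ Lens d, dir d g z = w := by
  obtain ⟨a, s, hs, hz⟩ := exists_lens hd hd1 (w := w) fun c h => by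
    rw [h, map_smul, hg, smul_eq_mul, mul_one] at hgw
    rw [h, hgw, zero_smul, norm_zero] at hw
    exact zero_ne_one hw
  refine ⟨_, hz, ?_⟩
  have hf : flat d g (s • w + a • d) = s • w := by
    simp [flat, hg, hgw]
  rw [dir, hf, norm_smul, hw, mul_one, Real.norm_of_nonneg hs.le, smul_smul,
    inv_mul_cancel₀ hs.ne', one_smul]

/-- An approximate selection of the lens. -/
theorem exists_selection (hd : d ≠ 0) (hd1 : ‖d‖ < 1) (hg : g d = 1) :
    ∃ Φ : ℕ → LinearMap.ker (g : E →ₗ[ℝ] ℝ) → E,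
      (∀ n, ContinuousOn (Φ n) (sphere 0 1)) ∧
      (∀ n, ∀ v ∈ sphere (0 : LinearMap.ker (g : E →ₗ[ℝ] ℝ)) 1,
        Φ n (-v) = d - Φ n v ∧ ‖Φ n v‖ ≤ ‖g‖ + 2 + 1 + ‖g‖) ∧
      ∀ φ : ℕ → ℕ, StrictMono φ → ∀ v : ℕ → LinearMap.ker (g : E →ₗ[ℝ] ℝ),
        (∀ n, v n ∈ sphere (0 : LinearMap.ker (g : E →ₗ[ℝ] ℝ)) 1) → ∀ z,
          Tendsto (fun n => Φ (φ n) (v n)) atTop (𝓝 z) → z ∈ Lens d := by
  classical
  set W := LinearMap.ker (g : E →ₗ[ℝ] ℝ)
  have : CompactSpace (Lens d) := isCompact_iff_compactSpace.1 (isCompact_lens d)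
  have hgflat : ∀ z, g (flat d g z) = 0 := fun z => by simp [flat, hg]
  set ψ : Lens d → sphere (0 : W) 1 := fun z => ⟨⟨dir d g z.1, by
      show g (dir d g z.1) = 0
      rw [dir, map_smul, hgflat, smul_zero]⟩, by
    rw [mem_sphere_zero_iff_norm]; exact norm_dir hd1 z.2⟩ with hψ
  have hψc : Continuous ψ :=
    ((continuousOn_iff_continuous_domRestrict.1 (continuousOn_dir hd1)).subtype_mk _).subtype_mk _
  have hsurj : Function.Surjective ψ := fun v => by
    obtain ⟨z, hz, hzv⟩ := exists_over hd hd1 hg (mem_sphere_zero_iff_norm.1 v.2)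
      (LinearMap.mem_ker.1 v.1.2)
    exact ⟨⟨z, hz⟩, Subtype.ext (Subtype.ext hzv)⟩
  choose sel hsel using hsurj
  set rad : sphere (0 : W) 1 → ℝ := fun v => ‖flat d g (sel v).1‖ with hrad
  have hradψ : ∀ z, rad (ψ z) = ‖flat d g z.1‖ := fun z => by
    simp only [hrad]
    rw [flat_eq_of_dir_eq hd1 z.2 (sel (ψ z)).2
      (congrArg (fun w : sphere (0 : W) 1 => ((w : W) : E)) (hsel (ψ z))).symm]
  have hradc : Continuous rad := by
    rw [(hψc.isClosedMap.isQuotientMap hψc fun v => ⟨sel v, hsel v⟩).continuous_iff,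
      show rad ∘ ψ = fun z => ‖flat d g z.1‖ from funext hradψ]
    unfold flat
    fun_prop
  set pt : sphere (0 : W) 1 → E := fun v => rad v • ((v : W) : E) with hpt
  have hptc : Continuous pt := hradc.smul (continuous_subtype_val.comp continuous_subtype_val)
  have hpt_mem : ∀ v, pt v + g (sel v).1 • d ∈ Lens d := fun v => by
    have he : ((v : W) : E) = dir d g (sel v).1 :=
      (congrArg (fun w : sphere (0 : W) 1 => ((w : W) : E)) (hsel v)).symm
    simp only [hpt, hrad, he, ← decomp_dir hd1 (sel v).2]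
    exact (sel v).2
  have hgsel : ∀ v, |g (sel v).1| ≤ ‖g‖ := fun v => by
    have h := g.le_opNorm (sel v).1
    rwa [(sel v).2.1, mul_one, Real.norm_eq_abs] at h
  have hηpos : ∀ n : ℕ, (0 : ℝ) < 1 / ((n : ℝ) + 1) := fun n => Nat.one_div_pos_of_nat
  choose β hβ hβb using fun (n : ℕ) (v : sphere (0 : W) 1) =>
    exists_root (pt v) d (hηpos n) (hpt_mem v)
  have hβb' : ∀ n v, |β n v| ≤ ‖g‖ + 1 := fun n v => (hβb n v).trans (by linarith [hgsel v])
  have hβc : ∀ n, Continuous (β n) := by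
    intro n
    set T := {q : sphere (0 : W) 1 × Icc (-(‖g‖ + 1)) (‖g‖ + 1) |
      bal (pt q.1) d q.2 + 1 / ((n : ℝ) + 1) * (2 * (q.2 : ℝ) - 1) = 0} with hT
    have hTc : IsClosed T := by
      refine isClosed_eq ?_ continuous_const
      unfold bal
      fun_prop
    have : CompactSpace T := isCompact_iff_compactSpace.1 hTc.isCompact
    let π : T → sphere (0 : W) 1 := fun q => q.1.1
    have hπc : Continuous π := continuous_fst.comp continuous_subtype_val
    have hπs : Function.Surjective π := fun v =>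
      ⟨⟨(v, ⟨β n v, abs_le.1 (hβb' n v)⟩), hβ n v⟩, rfl⟩
    rw [(hπc.isClosedMap.isQuotientMap hπc hπs).continuous_iff]
    have he : β n ∘ π = fun q : T => (q.1.2 : ℝ) := funext fun q =>
      root_unique _ d (hηpos n) (hβ n q.1.1) q.2
    rw [he]
    fun_prop
  set Φ : ℕ → W → E := fun n v =>
    if h : v ∈ sphere (0 : W) 1 then pt ⟨v, h⟩ + β n ⟨v, h⟩ • d else 0 with hΦ
  have hΦe : ∀ n v (h : v ∈ sphere (0 : W) 1), Φ n v = pt ⟨v, h⟩ + β n ⟨v, h⟩ • d :=
    fun n v h => by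
      simp only [hΦ]
      rw [dif_pos h]
  refine ⟨Φ, fun n => ?_, fun n v hv => ⟨?_, ?_⟩, fun φ hφ v hv z hz => ?_⟩
  · rw [continuousOn_iff_continuous_domRestrict]
    exact (hptc.add ((hβc n).smul continuous_const)).congr fun v => (hΦe n v.1 v.2).symm
  · have hv' : -v ∈ sphere (0 : W) 1 := by
      rw [mem_sphere_zero_iff_norm, norm_neg, ← mem_sphere_zero_iff_norm]; exact hv
    rw [hΦe n v hv, hΦe n (-v) hv']
    set a : sphere (0 : W) 1 := ⟨v, hv⟩
    set a' : sphere (0 : W) 1 := ⟨-v, hv'⟩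
    have hd' : flat d g (d - (sel a).1) = -flat d g (sel a).1 := by
      simp only [flat, map_sub, hg]; module
    have hψ' : ψ ⟨d - (sel a).1, lens_compl (sel a).2⟩ = a' := by
      refine Subtype.ext (Subtype.ext ?_)
      have he : dir d g (sel a).1 = (v : E) :=
        congrArg (fun w : sphere (0 : W) 1 => ((w : W) : E)) (hsel a)
      show dir d g (d - (sel a).1) = ((-v : W) : E)
      rw [Submodule.coe_neg, ← he, dir, dir, hd', norm_neg, smul_neg]
    have hr : rad a' = rad a := by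
      rw [← hψ', hradψ]
      simp only [hd', norm_neg, hrad]
    have hp : pt a' = -pt a := by
      simp only [hpt, hr]
      rw [← smul_neg]
      rfl
    have hb : β n a' = 1 - β n a := by
      refine root_unique _ d (hηpos n) (hβ n a') ?_
      rw [hp, bal_symm]
      linarith [hβ n a]
    rw [hp, hb]
    module
  · rw [hΦe n v hv]
    refine (norm_add_le _ _).trans ?_
    have h1 : ‖pt ⟨v, hv⟩‖ ≤ 1 + ‖g‖ := by
      have h := norm_le_add_norm_add (pt ⟨v, hv⟩) (g (sel ⟨v, hv⟩).1 • d)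
      rw [(hpt_mem ⟨v, hv⟩).1] at h
      have h3 : ‖g (sel ⟨v, hv⟩).1 • d‖ ≤ ‖g‖ := by
        rw [norm_smul, Real.norm_eq_abs]
        exact (mul_le_of_le_one_right (abs_nonneg _) hd1.le).trans (hgsel _)
      linarith
    have h2 : ‖β n ⟨v, hv⟩ • d‖ ≤ ‖g‖ + 1 := by
      rw [norm_smul, Real.norm_eq_abs]
      exact (mul_le_of_le_one_right (abs_nonneg _) hd1.le).trans (hβb' n _)
    linarith
  · obtain ⟨a, -, χ, hχ, ha⟩ := isCompact_univ.tendsto_subseq
      (x := fun n => (⟨v n, hv n⟩ : sphere (0 : W) 1)) (fun _ => mem_univ _)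
    obtain ⟨x, -, ω, hω, hx⟩ := (isCompact_Icc (a := -(‖g‖ + 1)) (b := ‖g‖ + 1)).tendsto_subseq
      (x := fun n => β (φ (χ n)) ⟨v (χ n), hv (χ n)⟩) (fun n => abs_le.1 (hβb' _ _))
    have ha' := ha.comp hω.tendsto_atTop
    have hlim : Tendsto (fun n => Φ (φ (χ (ω n))) (v (χ (ω n)))) atTop (𝓝 (pt a + x • d)) := by
      refine (((hptc.tendsto a).comp ha').add (hx.smul_const d)).congr fun n => ?_
      rw [hΦe _ _ (hv _)]
      rfl
    rw [tendsto_nhds_unique (hz.comp ((hχ.comp hω).tendsto_atTop)) hlim]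
    refine mem_lens_of_bal_eq_zero (hpt_mem a) ?_
    have hη0 : Tendsto (fun n => 1 / ((φ (χ (ω n)) : ℝ) + 1) *
        (2 * β (φ (χ (ω n))) ⟨v (χ (ω n)), hv _⟩ - 1)) atTop (𝓝 (0 * (2 * x - 1))) :=
      (tendsto_one_div_add_atTop_nhds_zero_nat.comp
        (hφ.comp (hχ.comp hω)).tendsto_atTop).mul ((hx.const_mul 2).sub_const 1)
    have hbal : Tendsto (fun n => bal (pt ⟨v (χ (ω n)), hv _⟩) d
        (β (φ (χ (ω n))) ⟨v (χ (ω n)), hv _⟩)) atTop (𝓝 (bal (pt a) d x)) := by
      have hc : Continuous fun q : sphere (0 : W) 1 × ℝ => bal (pt q.1) d q.2 := by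
        unfold bal; fun_prop
      have hh := (hc.tendsto (a, x)).comp (ha'.prodMk_nhds hx)
      simp only [Function.comp_def] at hh
      exact hh
    have h0 := hbal.add hη0
    rw [zero_mul, add_zero] at h0
    exact tendsto_nhds_unique h0 ((tendsto_const_nhds (x := (0 : ℝ))).congr fun n => (hβ _ _).symm)

/-- `G u + G (d - u)` is constant on the lens of a short vector, in any norm. -/
theorem sum_const (hdim : 4 ≤ finrank ℝ E) {G : E → ℝ} (hGc : Continuous G)
    (htri : ∀ a b : E, ‖a‖ = 1 → ‖b‖ = 1 → ‖a - b‖ = 1 → G (a - b) = G a - G b)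
    (hd : d ≠ 0) (hd1 : ‖d‖ < 1) {u u' : E} (hu : u ∈ Lens d) (hu' : u' ∈ Lens d) :
    G u + G (d - u) = G u' + G (d - u') := by
  obtain ⟨g, hg⟩ := SeparatingDual.exists_eq_one (R := ℝ) hd
  set W := LinearMap.ker (g : E →ₗ[ℝ] ℝ) with hW
  obtain ⟨Φ, hΦc, hΦs, hΦlim⟩ := exists_selection hd hd1 hg
  have hW3 : 3 ≤ finrank ℝ W := by
    have h1 := LinearMap.finrank_range_add_finrank_ker (g : E →ₗ[ℝ] ℝ)
    have h2 := Submodule.finrank_le (LinearMap.range (g : E →ₗ[ℝ] ℝ))
    rw [Module.finrank_self] at h2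
    rw [← hW] at h1
    omega
  have hrank : 1 < Module.rank ℝ W := by
    rw [← Module.finrank_eq_rank]
    exact_mod_cast (by omega : 1 < finrank ℝ W)
  set σ : E → ℝ := fun z => G z + G (d - z) with hσ
  have hσc : Continuous σ := hGc.add (hGc.comp (continuous_const.sub continuous_id))
  have hσe : ∀ z, σ (d - z) = σ z := fun z => by
    simp only [hσ, sub_sub_cancel]; ring
  suffices H : ∀ ε : ℝ, 0 < ε → ∃ c, ∀ t ∈ Lens d, |σ t - c| ≤ ε by
    refine eq_of_forall_dist_le fun ε hε => ?_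
    obtain ⟨c, hc⟩ := H (ε / 2) (by linarith)
    have h1 := abs_le.1 (hc u hu)
    have h2 := abs_le.1 (hc u' hu')
    rw [Real.dist_eq, abs_le]
    change -ε ≤ σ u - σ u' ∧ σ u - σ u' ≤ ε
    constructor <;> linarith
  intro ε hε
  have hband : ∀ n, ∃ v C, IsPreconnected C ∧ v ∈ C ∧ -v ∈ C ∧ C ⊆ sphere (0 : W) 1 ∧
      ∀ p ∈ C, |σ (Φ n p) - σ (Φ n v)| < ε / 2 := fun n => by
    refine exists_band hW3 (hσc.comp_continuousOn (hΦc n)) (fun v hv => ?_) (by linarith)
    simp only [Function.comp_apply, (hΦs n v hv).1, hσe]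
  choose v C hCc hvC hnvC hCS hCb using hband
  set Kb := closedBall (0 : E) (‖g‖ + 2 + 1 + ‖g‖) with hKb
  have hmemKb : ∀ n, ∀ p ∈ C n, Φ n p ∈ Kb := fun n p hp =>
    mem_closedBall_zero_iff.2 (hΦs n p (hCS n hp)).2
  obtain ⟨p₀, -, χ, hχ, hp₀⟩ := (isCompact_closedBall (0 : E) (‖g‖ + 2 + 1 + ‖g‖)).tendsto_subseq
    (x := fun n => Φ n (v n)) (fun n => hmemKb n _ (hvC n))
  refine ⟨σ p₀, ?_⟩
  set B := Lens d ∩ {t | |σ t - σ p₀| ≤ ε} with hB
  have hBc : IsCompact B := (isCompact_lens d).inter_right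
    (isClosed_le (hσc.sub continuous_const).abs continuous_const)
  have hnp₀ : d - p₀ ∈ connectedComponentIn B p₀ := by
    refine mem_component_of_limit (isCompact_closedBall (0 : E) (‖g‖ + 2 + 1 + ‖g‖)) hBc
      (C := fun n => Φ (χ n) '' C (χ n))
      (fun n => (hCc _).image _ ((hΦc _).mono (hCS _)))
      (fun n => image_subset_iff.2 (hmemKb _)) ?_
      (p' := fun n => Φ (χ n) (v (χ n))) (q' := fun n => Φ (χ n) (-v (χ n)))
      (fun n => ⟨_, hvC _, rfl⟩) (fun n => ⟨_, hnvC _, rfl⟩) hp₀ ?_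
    · intro φ hφ y hy z hz
      choose w hw hwy using hy
      have hz' : Tendsto (fun n => Φ (χ (φ n)) (w n)) atTop (𝓝 z) :=
        hz.congr fun n => (hwy n).symm
      refine ⟨hΦlim (χ ∘ φ) (hχ.comp hφ) w (fun n => hCS _ (hw n)) z hz', ?_⟩
      have h1 : Tendsto (fun n => |σ (Φ (χ (φ n)) (w n)) - σ (Φ (χ (φ n)) (v (χ (φ n))))|) atTop
          (𝓝 |σ z - σ p₀|) :=
        (((hσc.tendsto z).comp hz').sub
          ((hσc.tendsto p₀).comp (hp₀.comp hφ.tendsto_atTop))).abs
      exact le_of_tendsto' h1 fun n => by linarith [hCb _ _ (hw n)]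
    · exact ((tendsto_const_nhds (x := d)).sub hp₀).congr fun n =>
        ((hΦs _ _ (hCS _ (hvC _))).1).symm
  set Kc := connectedComponentIn B p₀ with hKc
  have hKB : Kc ⊆ B := connectedComponentIn_subset B p₀
  have hp₀B : p₀ ∈ B := by
    by_contra h
    rw [hKc, connectedComponentIn_eq_empty h] at hnp₀
    exact hnp₀
  have hp₀K : p₀ ∈ Kc := mem_connectedComponentIn hp₀B
  have hKp : IsPreconnected Kc := isPreconnected_connectedComponentIn
  have hKcl : IsClosed Kc := by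
    have : closure Kc ⊆ Kc :=
      hKp.closure.subset_connectedComponentIn (subset_closure hp₀K)
        ((closure_minimal hKB hBc.isClosed))
    exact closure_subset_iff_isClosed.1 this
  have hsym : ∀ p ∈ Kc, d - p ∈ Kc := by
    intro p hp
    have hsub : (fun z => d - z) '' Kc ⊆ Kc := by
      refine (hKp.image _ (continuous_const.sub continuous_id).continuousOn
        ).subset_connectedComponentIn ⟨d - p₀, hnp₀, sub_sub_cancel d p₀⟩ ?_
      rintro _ ⟨q, hq, rfl⟩
      refine ⟨lens_compl (hKB hq).1, ?_⟩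
      show |σ (d - q) - σ p₀| ≤ ε
      rw [hσe]
      exact (hKB hq).2
    exact hsub ⟨p, hp, rfl⟩
  have hnear : ∀ p ∈ Kc, ∀ t ∈ Lens d, ‖t - p‖ < 1 - ‖d‖ → t ∈ B := by
    intro p hp t ht htp
    have hfar : 1 ≤ ‖t - (d - p)‖ := by
      have h1 := norm_sub_norm_le ((2 : ℝ) • p) d
      rw [norm_smul, Real.norm_of_nonneg zero_le_two, (hKB hp).1.1] at h1
      have h2 := norm_sub_le_norm_sub_add_norm_sub p t (d - p)
      rw [show p - (d - p) = (2 : ℝ) • p - d by module, norm_sub_rev p t] at h2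
      linarith
    obtain ⟨s, hs, hs1⟩ := hKp.intermediate_value hp (hsym p hp) (f := fun q => ‖t - q‖)
      (continuous_const.sub continuous_id).norm.continuousOn
      (show (1 : ℝ) ∈ Icc ‖t - p‖ ‖t - (d - p)‖ from ⟨by linarith [norm_nonneg d], hfar⟩)
    have he : σ t = σ s := unit_step htri ht (hKB hs).1 hs1
    refine ⟨ht, ?_⟩
    show |σ t - σ p₀| ≤ ε
    rw [he]
    exact (hKB hs).2
  have hgd : ∀ z : E, g (flat d g z) = 0 := fun z => by simp [flat, hg]
  have hfib : ∀ p ∈ Kc, ∀ t ∈ Lens d, dir d g t = dir d g p → t ∈ Kc := by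
    intro p hp t ht hpt
    set F := Lens d ∩ dir d g ⁻¹' {dir d g p} with hF
    have hFp : IsPreconnected F := isPreconnected_fibre hd1 hg _
    have hsub : F ⊆ Kc := by
      set U := {z | ∃ q ∈ Kc ∩ F, ‖z - q‖ < 1 - ‖d‖} with hU
      -- near points of the fibre stay in the component
      have hstep : ∀ q ∈ Kc ∩ F, ∀ z ∈ F, ‖z - q‖ < 1 - ‖d‖ → z ∈ Kc := by
        intro q hq z hz hzq
        have hfl := flat_eq_of_dir_eq hd1 hq.2.1 hz.1 (hq.2.2.trans hz.2.symm)
        have hseg : (fun x : ℝ => flat d g q + x • d) '' uIcc (g q) (g z) ⊆ B := by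
          rintro _ ⟨x, hx, rfl⟩
          have e1 : flat d g q + g q • d ∈ Lens d := by rw [← decomp]; exact hq.2.1
          have e2 : flat d g q + g z • d ∈ Lens d := by rw [← hfl, ← decomp]; exact hz.1
          have hxL : flat d g q + x • d ∈ Lens d := by
            rcases mem_uIcc.1 hx with ⟨h1, h2⟩ | ⟨h1, h2⟩
            · exact fibre_convex h1 h2 e1 e2
            · exact fibre_convex h1 h2 e2 e1
          refine hnear q hq.1 _ hxL ?_
          have k1 : flat d g q + x • d - q = (x - g q) • d := by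
            conv_lhs => arg 2; rw [decomp (d := d) (g := g) q]
            module
          have k2 : z - q = (g z - g q) • d := by
            conv_lhs => rw [decomp (d := d) (g := g) z, decomp (d := d) (g := g) q, hfl]
            module
          rw [k1, norm_smul]
          rw [k2, norm_smul] at hzq
          refine lt_of_le_of_lt ?_ hzq
          rw [Real.norm_eq_abs, Real.norm_eq_abs]
          exact mul_le_mul_of_nonneg_right (abs_sub_left_of_mem_uIcc hx) (norm_nonneg d)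
        have hmem : q ∈ (fun x : ℝ => flat d g q + x • d) '' uIcc (g q) (g z) :=
          ⟨g q, left_mem_uIcc, (decomp q).symm⟩
        have := (isPreconnected_uIcc.image _ (by fun_prop)).subset_connectedComponentIn hmem hseg
          (show z ∈ _ from ⟨g z, right_mem_uIcc, by change flat d g q + g z • d = z; rw [← hfl, ← decomp]⟩)
        rw [hKc, connectedComponentIn_eq hq.1]
        exact this
      intro z hz
      by_contra hzK
      have hUo : IsOpen U := by
        have : U = ⋃ q ∈ Kc ∩ F, ball q (1 - ‖d‖) := by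
          ext z; simp [hU, mem_ball, dist_eq_norm]
        rw [this]
        exact isOpen_biUnion fun _ _ => isOpen_ball
      obtain ⟨y, hy, hy1, hy2⟩ := hFp U Kcᶜ hUo hKcl.isOpen_compl
        (fun y hy => by
          by_cases h : y ∈ Kc
          · exact Or.inl ⟨y, ⟨h, hy⟩, by rw [sub_self, norm_zero]; linarith⟩
          · exact Or.inr h)
        ⟨p, ⟨(hKB hp).1, rfl⟩, p, ⟨hp, (hKB hp).1, rfl⟩, by rw [sub_self, norm_zero]; linarith⟩
        ⟨z, hz, hzK⟩
      obtain ⟨q, hq, hyq⟩ := hy1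
      exact hy2 (hstep q hq y hy hyq)
    exact hsub ⟨ht, hpt⟩
  set ψ : E → E := dir d g
  -- the set of directions met by the component is relatively clopen in the sphere
  set S₁ := {w : W | ‖(w : E)‖ = 1 ∧ (w : E) ∈ ψ '' Kc} with hS₁
  have hS₁c : IsClosed S₁ := by
    have h : IsClosed (ψ '' Kc) := (((isCompact_lens d).of_isClosed_subset hKcl
      fun z hz => (hKB hz).1).image_of_continuousOn
        ((continuousOn_dir hd1).mono fun z hz => (hKB hz).1)).isClosed
    exact (isClosed_eq (continuous_norm.comp continuous_subtype_val) continuous_const).inter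
      (h.preimage continuous_subtype_val)
  have hopen : ∀ w ∈ S₁, ∃ r > 0, ∀ w' ∈ sphere (0 : W) 1, dist w' w < r → w' ∈ S₁ := by
    rintro w ⟨hw1, p, hp, hpw⟩
    have hr : ∀ᶠ r : ℝ in 𝓝[>] 0, ∀ t ∈ Lens d, ‖ψ t - (w : E)‖ ≤ r → t ∈ B := by
      by_contra hcon
      rw [not_eventually] at hcon
      have hex : ∀ n : ℕ, ∃ t ∈ Lens d, ‖ψ t - (w : E)‖ ≤ 1 / ((n : ℝ) + 1) ∧ t ∉ B := by
        intro n
        obtain ⟨r, hr, hr1⟩ := (hcon.and_eventually (Ioo_mem_nhdsGT
          (Nat.one_div_pos_of_nat : (0 : ℝ) < 1 / ((n : ℝ) + 1)))).exists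
        push Not at hr
        obtain ⟨t, ht, ht1, ht2⟩ := hr
        exact ⟨t, ht, ht1.trans hr1.2.le, ht2⟩
      choose t ht ht1 ht2 using hex
      obtain ⟨t₀, ht₀, χ', hχ', hlim⟩ := (isCompact_lens d).tendsto_subseq ht
      have hψt : ψ t₀ = (w : E) := by
        have h1 : Tendsto (fun n => ψ (t (χ' n))) atTop (𝓝 (ψ t₀)) :=
          ((continuousOn_dir hd1).continuousWithinAt ht₀).tendsto.comp
            (tendsto_nhdsWithin_iff.2 ⟨hlim, Eventually.of_forall fun n => ht _⟩)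
        refine tendsto_nhds_unique h1 (tendsto_iff_norm_sub_tendsto_zero.2 ?_)
        exact squeeze_zero (fun n => norm_nonneg _) (fun n => ht1 _)
          (tendsto_one_div_add_atTop_nhds_zero_nat.comp hχ'.tendsto_atTop)
      have hK₀ := hfib p hp t₀ ht₀ (hψt.trans hpw.symm)
      obtain ⟨n, hn⟩ := (Metric.tendsto_nhds.1 hlim (1 - ‖d‖) (by linarith)).exists
      rw [Function.comp_apply, dist_eq_norm] at hn
      exact ht2 _ (hnear t₀ hK₀ _ (ht _) hn)
    obtain ⟨r, hr, hr0⟩ := (hr.and self_mem_nhdsWithin).exists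
    replace hr0 : 0 < r := hr0
    refine ⟨min (1 / 2) (r / 2), lt_min (by norm_num) (by linarith), fun w' hw' hd' => ?_⟩
    rw [dist_eq_norm] at hd'
    obtain ⟨A, hAc, hwA, hw'A, hAS, hAd⟩ := exists_small_arc (V := W) (p := w) (t := w') hw1
      (mem_sphere_zero_iff_norm.1 hw') (hd'.trans_le (min_le_left _ _))
    have hA₂ : IsPreconnected (closure A) := hAc.closure
    have hA₂S : closure A ⊆ sphere (0 : W) 1 := closure_minimal hAS isClosed_sphere
    have hA₂d : ∀ q ∈ closure A, ‖q - w‖ ≤ r := fun q hq => by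
      have h : closure A ⊆ closedBall w r := closure_minimal (fun q hq => by
        rw [mem_closedBall, dist_eq_norm]
        linarith [hAd q hq, min_le_right (1 / 2 : ℝ) (r / 2)]) isClosed_closedBall
      have := h hq
      rwa [mem_closedBall, dist_eq_norm] at this
    set A₃ : Set E := Subtype.val '' closure A with hA₃
    have hA₃c : IsClosed A₃ :=
      ((isCompact_sphere (0 : W) 1).of_isClosed_subset isClosed_closure hA₂S |>.image
        continuous_subtype_val).isClosed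
    have hpre : IsPreconnected (Lens d ∩ ψ ⁻¹' A₃) := by
      refine preimage_preconnected (isCompact_lens d) (continuousOn_dir hd1) hA₃c
        (hA₂.image _ continuous_subtype_val.continuousOn) ?_
        (fun z _ => isPreconnected_fibre hd1 hg z)
      rintro _ ⟨q, hq, rfl⟩
      obtain ⟨z, hz, hzq⟩ := exists_over hd hd1 hg (mem_sphere_zero_iff_norm.1 (hA₂S hq))
        (LinearMap.mem_ker.1 q.2)
      exact ⟨z, hz, hzq⟩
    have hsubB : Lens d ∩ ψ ⁻¹' A₃ ⊆ B := by
      rintro t ⟨ht, q, hq, hqt⟩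
      refine hr t ht ?_
      rw [← hqt]
      exact hA₂d q hq
    have hpin : p ∈ Lens d ∩ ψ ⁻¹' A₃ :=
      ⟨(hKB hp).1, w, subset_closure hwA, hpw.symm⟩
    obtain ⟨z, hz, hzw⟩ := exists_over hd hd1 hg (mem_sphere_zero_iff_norm.1 hw')
      (LinearMap.mem_ker.1 w'.2)
    have hzK := hpre.subset_connectedComponentIn hpin hsubB ⟨hz, w', subset_closure hw'A, hzw.symm⟩
    rw [← connectedComponentIn_eq hp] at hzK
    exact ⟨mem_sphere_zero_iff_norm.1 hw', z, hzK, hzw⟩
  have hall : sphere (0 : W) 1 ⊆ S₁ := by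
    intro w hw
    by_contra hwS
    set U₁ := {x : W | ∃ y ∈ S₁, ∀ᶠ z in 𝓝 x, z ∈ sphere (0 : W) 1 → z ∈ S₁} with hU₁
    have hU₁o : IsOpen U₁ := by
      rw [isOpen_iff_mem_nhds]
      rintro x ⟨y, hy, hx⟩
      filter_upwards [hx.eventually_nhds] with z hz
      exact ⟨y, hy, hz⟩
    have hp₀S : ∃ y : W, y ∈ S₁ ∧ y ∈ sphere (0 : W) 1 := by
      refine ⟨⟨ψ p₀, ?_⟩, ⟨norm_dir hd1 hp₀B.1, p₀, hp₀K, rfl⟩,
        mem_sphere_zero_iff_norm.2 (norm_dir hd1 hp₀B.1)⟩
      show g (dir d g p₀) = 0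
      rw [dir, map_smul, hgd, smul_zero]
    obtain ⟨y₀, hy₀, hy₀S⟩ := hp₀S
    have hcov : sphere (0 : W) 1 ⊆ U₁ ∪ S₁ᶜ := fun x hx => by
      by_cases h : x ∈ S₁
      · left
        obtain ⟨r, hr, hr'⟩ := hopen x h
        exact ⟨x, h, Filter.eventually_of_mem (ball_mem_nhds x hr) fun z hz hz' => hr' z hz' hz⟩
      · exact Or.inr h
    obtain ⟨x, hx, ⟨y, -, hxe⟩, hx2⟩ := isPreconnected_sphere hrank (0 : W) 1 U₁ S₁ᶜ hU₁o
      hS₁c.isOpen_compl hcov ⟨y₀, hy₀S, by
        obtain ⟨r, hr, hr'⟩ := hopen y₀ hy₀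
        exact ⟨y₀, hy₀, Filter.eventually_of_mem (ball_mem_nhds y₀ hr) fun z hz hz' => hr' z hz' hz⟩⟩
      ⟨w, hw, hwS⟩
    exact hx2 (hxe.self_of_nhds hx)
  intro t ht
  have hw : (⟨ψ t, by show g (dir d g t) = 0; rw [dir, map_smul, hgd, smul_zero]⟩ : W)
      ∈ sphere (0 : W) 1 := mem_sphere_zero_iff_norm.2 (norm_dir hd1 ht)
  obtain ⟨-, p, hp, hpt⟩ := hall hw
  exact (hKB (hfib p hp t ht hpt.symm)).2

end Vale.Agent.P084.Gen
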