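import Vale.Agent.P084.Gen.Const
import Vale.Agent.P084.Strict.Rigid

/-!
A positively homogeneous Lipschitz function, additive on unit equilateral triangles, is linear
on any normed space of dimension at least four.
-/

open Set Metric Module

namespace Vale.Agent.P084.Gen

open Vale.Agent.P084.Strict

variable {E : Type*} [NormedAddCommGroup E] [NormedSpace ℝ E]

theorem exists_apex (hrank : 1 < Module.rank ℝ E) {c : E} (hc : ‖c‖ = 1) :
    ∃ b : E, ‖b‖ = 1 ∧ ‖b + c‖ = 1 := by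
  obtain ⟨b, hb, hb1⟩ := (isPreconnected_sphere hrank (0 : E) 1).intermediate_value
    (show -c ∈ sphere (0 : E) 1 by rw [mem_sphere_zero_iff_norm, norm_neg, hc])
    (show c ∈ sphere (0 : E) 1 by rw [mem_sphere_zero_iff_norm, hc])
    (f := fun b => ‖b + c‖) (continuous_id.add continuous_const).norm.continuousOn
    (show (1 : ℝ) ∈ Icc ‖-c + c‖ ‖c + c‖ by
      rw [neg_add_cancel, norm_zero, ← two_smul ℝ c, norm_smul, hc]; norm_num)
  exact ⟨b, mem_sphere_zero_iff_norm.1 hb, hb1⟩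

theorem odd_of_triangle (hrank : 1 < Module.rank ℝ E) {G : E → ℝ}
    (hG : ∀ (t : ℝ) x, 0 ≤ t → G (t • x) = t * G x)
    (htri : ∀ a b : E, ‖a‖ = 1 → ‖b‖ = 1 → ‖a - b‖ = 1 → G (a - b) = G a - G b) (x : E) :
    G (-x) = -G x := by
  rcases eq_or_ne x 0 with rfl | hx
  · simp [show G 0 = 0 by simpa using hG 0 0 le_rfl]
  set c := ‖x‖⁻¹ • x with hc
  have hc1 : ‖c‖ = 1 := by
    rw [hc, norm_smul, norm_inv, norm_norm, inv_mul_cancel₀ (norm_ne_zero_iff.2 hx)]
  obtain ⟨b, hb, hbc⟩ := exists_apex hrank hc1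
  have h1 := htri (b + c) b hbc hb (by rw [add_sub_cancel_left, hc1])
  have h2 := htri b (b + c) hb hbc (by rw [sub_add_cancel_left, norm_neg, hc1])
  rw [add_sub_cancel_left] at h1
  rw [sub_add_cancel_left] at h2
  have hxc : x = ‖x‖ • c := by
    rw [hc, smul_smul, mul_inv_cancel₀ (norm_ne_zero_iff.2 hx), one_smul]
  rw [hxc, ← smul_neg, hG _ _ (norm_nonneg x), hG _ _ (norm_nonneg x), h2, h1]
  ring

variable [FiniteDimensional ℝ E]

/-- The rigidity engine, with no convexity assumption on the norm. -/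
theorem linear_of_triangle (hdim : 4 ≤ finrank ℝ E) {G : E → ℝ} {K : NNReal}
    (hGl : LipschitzWith K G) (hG : ∀ (t : ℝ) x, 0 ≤ t → G (t • x) = t * G x)
    (htri : ∀ a b : E, ‖a‖ = 1 → ‖b‖ = 1 → ‖a - b‖ = 1 → G (a - b) = G a - G b) :
    ∃ L : E →L[ℝ] ℝ, ∀ x, G x = L x := by
  let : MeasurableSpace E := borel E
  have : BorelSpace E := ⟨rfl⟩
  have hrank : 1 < Module.rank ℝ E := by
    rw [← Module.finrank_eq_rank]
    exact_mod_cast (by omega : 1 < finrank ℝ E)
  exact linear_of_sum hdim hGl hG (odd_of_triangle hrank hG htri) fun d hd hd1 u hu u' hu' =>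
    sum_const hdim hGl.continuous htri hd hd1 hu hu'

end Vale.Agent.P084.Gen
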