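import Vale.Agent.P084.Strict.Lens

/-!
The lens in an arbitrary normed space: one radius over each direction, fibres are segments,
and an approximate continuous selection.
-/

open Set Metric Filter Topology

namespace Vale.Agent.P084.Gen

open Vale.Agent.P084.Strict

variable {E : Type*} [NormedAddCommGroup E] [NormedSpace ℝ E]

theorem convexOn_line (w d : E) : ConvexOn ℝ univ (fun x : ℝ => ‖w + x • d‖) := by
  refine ⟨convex_univ, fun p _ q _ μ ν hμ hν h => ?_⟩
  have e : w + (μ • p + ν • q) • d = μ • (w + p • d) + ν • (w + q • d) := by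
    rw [smul_add, smul_add, add_add_add_comm, ← add_smul, h, one_smul, smul_smul, smul_smul,
      ← add_smul, smul_eq_mul, smul_eq_mul]
  change ‖w + (μ • p + ν • q) • d‖ ≤ μ • ‖w + p • d‖ + ν • ‖w + q • d‖
  rw [e]
  refine (norm_add_le _ _).trans ?_
  rw [norm_smul, norm_smul, Real.norm_of_nonneg hμ, Real.norm_of_nonneg hν, smul_eq_mul,
    smul_eq_mul]

/-- A convex function does not exceed the larger end value, strictly if an end is smaller. -/
theorem lt_of_convex {f : ℝ → ℝ} (hf : ConvexOn ℝ univ f) {p q x μ : ℝ} (hpx : p < x) (hxq : x < q)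
    (hp : f p ≤ μ) (hq : f q ≤ μ) (h : f p < μ ∨ f q < μ) : f x < μ := by
  have hd : 0 < q - p := by linarith
  set a := (q - x) / (q - p) with ha
  set b := (x - p) / (q - p) with hb
  have hab : a + b = 1 := by rw [ha, hb, ← add_div, div_eq_one_iff_eq hd.ne']; ring
  have ha0 : 0 < a := div_pos (by linarith) hd
  have hb0 : 0 < b := div_pos (by linarith) hd
  have hx : a • p + b • q = x := by
    simp only [smul_eq_mul, ha, hb]
    field_simp
    ring
  have hc := hf.2 (mem_univ p) (mem_univ q) ha0.le hb0.le hab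
  rw [hx] at hc
  simp only [smul_eq_mul] at hc
  have hμ : μ = a * μ + b * μ := by rw [← add_mul, hab, one_mul]
  rcases h with h | h
  · linarith [mul_lt_mul_of_pos_left h ha0, mul_le_mul_of_nonneg_left hq hb0.le]
  · linarith [mul_le_mul_of_nonneg_left hp ha0.le, mul_lt_mul_of_pos_left h hb0]

/-- On one line a pair at distance `d` on a sphere excludes such a pair inside it. -/
theorem line_excl {w d : E} {a b μ : ℝ} (ha : ‖w + a • d‖ = μ) (ha' : ‖w + (a - 1) • d‖ = μ)
    (hb : ‖w + b • d‖ < μ) (hb' : ‖w + (b - 1) • d‖ < μ) : False := by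
  rcases lt_trichotomy b a with h | h | h
  · have := lt_of_convex (convexOn_line w d) (p := b - 1) (x := a - 1) (q := a) (μ := μ)
      (by linarith) (by linarith) hb'.le ha.le (Or.inl hb')
    simp only [ha', lt_irrefl] at this
  · rw [h, ha] at hb
    exact lt_irrefl _ hb
  · have := lt_of_convex (convexOn_line w d) (p := a - 1) (x := a) (q := b) (μ := μ)
      (by linarith) h ha'.le hb.le (Or.inr hb)
    simp only [ha, lt_irrefl] at this

/-- The fibres of the lens are convex. -/
theorem fibre_convex {w d : E} {a b c : ℝ} (hac : a ≤ c) (hcb : c ≤ b) (ha : w + a • d ∈ Lens d)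
    (hb : w + b • d ∈ Lens d) : w + c • d ∈ Lens d := by
  rcases eq_or_lt_of_le hac with rfl | hac
  · exact ha
  rcases eq_or_lt_of_le hcb with rfl | hcb
  · exact hb
  have key : ∀ x : ℝ, ‖d - (w + x • d)‖ = ‖w + (x - 1) • d‖ := fun x => by
    rw [norm_sub_rev]
    congr 1
    module
  obtain ⟨ha, ha'⟩ := ha
  obtain ⟨hb, hb'⟩ := hb
  rw [key] at ha' hb'
  have hf := convexOn_line w d
  have hle : ∀ {p q x : ℝ}, p < x → x < q → ‖w + p • d‖ = 1 → ‖w + q • d‖ = 1 →
      ‖w + x • d‖ ≤ 1 := fun {p q x} h1 h2 hp hq => by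
    by_contra hx
    have hx : 1 < ‖w + x • d‖ := not_le.1 hx
    have := lt_of_convex hf h1 h2 (μ := ‖w + x • d‖) (by linarith) (by linarith)
      (Or.inl (by linarith))
    exact lt_irrefl _ this
  refine ⟨le_antisymm (hle hac hcb ha hb) ?_, ?_⟩
  · by_contra hx
    have := lt_of_convex hf (p := a - 1) (x := a) (q := c) (μ := 1) (by linarith) hac ha'.le
      (not_le.1 hx).le (Or.inr (not_le.1 hx))
    simp only [ha, lt_irrefl] at this
  · rw [key]
    refine le_antisymm (hle (p := a - 1) (q := b - 1) (by linarith) (by linarith) ha' hb') ?_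
    by_contra hx
    have := lt_of_convex hf (p := c - 1) (x := b - 1) (q := b) (μ := 1) (by linarith) (by linarith)
      (not_le.1 hx).le hb.le (Or.inl (not_le.1 hx))
    simp only [hb', lt_irrefl] at this

/-- The radial coordinate is unique. -/
theorem radius_unique_aux {w d : E} (hd1 : ‖d‖ < 1) {a b s : ℝ} (hs : 1 < s)
    (ha : w + a • d ∈ Lens d) (hb : s • w + b • d ∈ Lens d) : False := by
  obtain ⟨ha, ha'⟩ := ha
  obtain ⟨hb, hb'⟩ := hb
  rw [norm_sub_rev, show w + a • d - d = w + (a - 1) • d by module] at ha'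
  rw [norm_sub_rev] at hb'
  set t := s⁻¹ with ht
  have hs0 : 0 < s := by linarith
  have ht0 : 0 < t := inv_pos.2 hs0
  have ht1 : t < 1 := inv_lt_one_of_one_lt₀ hs
  set c := t * b + (1 - t) / 2 with hc
  have e1 : w + c • d = t • (s • w + b • d) + ((1 - t) / 2) • d := by
    rw [smul_add, smul_smul, smul_smul, ht, inv_mul_cancel₀ hs0.ne', one_smul, hc]
    module
  have e2 : w + (c - 1) • d = t • (s • w + b • d - d) - ((1 - t) / 2) • d := by
    rw [smul_sub, smul_add, smul_smul, smul_smul, ht, inv_mul_cancel₀ hs0.ne', one_smul, hc]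
    module
  have hlt : t + (1 - t) / 2 * ‖d‖ < 1 := by
    nlinarith [norm_nonneg d, mul_lt_mul_of_pos_left hd1 (by linarith : (0 : ℝ) < 1 - t)]
  have hh : (0 : ℝ) ≤ (1 - t) / 2 := by linarith
  refine line_excl ha ha' (b := c) ?_ ?_
  · rw [e1]
    refine ((norm_add_le _ _).trans_lt ?_)
    rw [norm_smul, norm_smul, hb, Real.norm_of_nonneg ht0.le, Real.norm_of_nonneg hh, mul_one]
    exact hlt
  · rw [e2]
    refine ((norm_sub_le _ _).trans_lt ?_)
    rw [norm_smul, norm_smul, hb', Real.norm_of_nonneg ht0.le, Real.norm_of_nonneg hh, mul_one]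
    exact hlt

theorem radius_unique {w d : E} (hd1 : ‖d‖ < 1) {a b s : ℝ} (hs : 0 < s)
    (ha : w + a • d ∈ Lens d) (hb : s • w + b • d ∈ Lens d) : s = 1 := by
  rcases lt_trichotomy s 1 with h | h | h
  · exact (radius_unique_aux (w := s • w) (a := b) (b := a) (s := s⁻¹) hd1 ((one_lt_inv₀ hs).2 h) hb
      (by rwa [smul_smul, inv_mul_cancel₀ hs.ne', one_smul])).elim
  · exact h
  · exact (radius_unique_aux hd1 h ha hb).elim

/-- The balance function of a line. -/
noncomputable def bal (w d : E) (x : ℝ) : ℝ := ‖w + x • d‖ - ‖w + (x - 1) • d‖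

theorem bal_symm (w d : E) (x : ℝ) : bal (-w) d (1 - x) = -bal w d x := by
  rw [bal, bal, neg_sub, ← norm_neg (-w + (1 - x) • d), ← norm_neg (-w + (1 - x - 1) • d)]
  congr 1 <;> congr 1 <;> module

theorem bal_mono (w d : E) {x y : ℝ} (h : x ≤ y) : bal w d x ≤ bal w d y := by
  rcases eq_or_lt_of_le h with rfl | h
  · rfl
  have hf := convexOn_line w d
  set μ := (y - x) / (y - x + 1) with hμ
  have hd : 0 < y - x + 1 := by linarith
  have hμ0 : 0 ≤ μ := div_nonneg (by linarith) hd.le
  have hμ1 : 0 ≤ 1 - μ := by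
    have : μ ≤ 1 := (div_le_one hd).2 (by linarith)
    linarith
  have k1 : μ • (x - 1) + (1 - μ) • y = x := by
    simp only [smul_eq_mul, hμ]
    field_simp
    ring
  have k2 : (1 - μ) • (x - 1) + μ • y = y - 1 := by
    simp only [smul_eq_mul, hμ]
    field_simp
    ring
  have c1 := hf.2 (mem_univ (x - 1)) (mem_univ y) hμ0 hμ1 (by ring)
  have c2 := hf.2 (mem_univ (x - 1)) (mem_univ y) hμ1 hμ0 (by ring)
  rw [k1] at c1
  rw [k2] at c2
  simp only [smul_eq_mul] at c1 c2
  rw [bal, bal]
  linarith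

/-- A point where a line is balanced lies in the fibre, once the fibre is not empty. -/
theorem mem_lens_of_bal_eq_zero {w d : E} {a x : ℝ} (ha : w + a • d ∈ Lens d)
    (hx : bal w d x = 0) : w + x • d ∈ Lens d := by
  have key : ∀ z : ℝ, ‖d - (w + z • d)‖ = ‖w + (z - 1) • d‖ := fun z => by
    rw [norm_sub_rev]
    congr 1
    module
  obtain ⟨ha, ha'⟩ := ha
  rw [key] at ha'
  have he : ‖w + x • d‖ = ‖w + (x - 1) • d‖ := sub_eq_zero.1 hx
  rcases lt_trichotomy ‖w + x • d‖ 1 with h | h | h
  · exact (line_excl ha ha' h (he ▸ h)).elim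
  · exact ⟨h, by rw [key, ← he, h]⟩
  · exact (line_excl rfl he.symm (ha.trans_lt h) (ha'.trans_lt h)).elim

/-- The perturbed balance has a unique zero, between `1 / 2` and the fibre. -/
theorem exists_root (w d : E) {η : ℝ} (hη : 0 < η) {a : ℝ} (ha : w + a • d ∈ Lens d) :
    ∃ x : ℝ, bal w d x + η * (2 * x - 1) = 0 ∧ |x| ≤ |a| + 1 := by
  set g : ℝ → ℝ := fun x => bal w d x + η * (2 * x - 1) with hg
  have hb0 : bal w d a = 0 := by
    rw [bal, ha.1, sub_eq_zero, show w + (a - 1) • d = w + a • d - d by module, norm_sub_rev]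
    exact ha.2.symm
  have hl : g (min a (1 / 2)) ≤ 0 := by
    have h1 := bal_mono w d (min_le_left a (1 / 2))
    have h2 : η * (2 * min a (1 / 2) - 1) ≤ 0 :=
      mul_nonpos_of_nonneg_of_nonpos hη.le (by linarith [min_le_right a (1 / 2)])
    simp only [hg]
    linarith
  have hu : 0 ≤ g (max a (1 / 2)) := by
    have h1 := bal_mono w d (le_max_left a (1 / 2))
    have h2 : 0 ≤ η * (2 * max a (1 / 2) - 1) :=
      mul_nonneg hη.le (by linarith [le_max_right a (1 / 2)])
    simp only [hg]
    linarith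
  obtain ⟨x, hx, hx0⟩ := intermediate_value_Icc (min_le_max (a := a) (b := 1 / 2))
    (show ContinuousOn g (Icc (min a (1 / 2)) (max a (1 / 2))) by
      simp only [hg, bal]; fun_prop)
    ⟨hl, hu⟩
  refine ⟨x, hx0, ?_⟩
  obtain ⟨h1, h2⟩ := hx
  have h3 : max a (1 / 2) ≤ |a| + 1 := max_le (by linarith [le_abs_self a]) (by linarith [abs_nonneg a])
  have h4 : -(|a| + 1) ≤ min a (1 / 2) := le_min (by linarith [neg_abs_le a]) (by linarith [abs_nonneg a])
  rw [abs_le]
  exact ⟨by linarith, by linarith⟩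

theorem root_unique (w d : E) {η : ℝ} (hη : 0 < η) {x y : ℝ}
    (hx : bal w d x + η * (2 * x - 1) = 0) (hy : bal w d y + η * (2 * y - 1) = 0) : x = y := by
  rcases lt_trichotomy x y with h | h | h
  · nlinarith [bal_mono w d h.le, mul_lt_mul_of_pos_left h hη]
  · exact h
  · nlinarith [bal_mono w d h.le, mul_lt_mul_of_pos_left h hη]

end Vale.Agent.P084.Gen
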